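import Vale.Agent.P052.Data

namespace Vale.Agent.P052

/-- Neighbour mask of a vertex. -/
def row (i : Nat) : Nat := lut rowT i

def rangeL : List Nat := List.range 416

def pairsOf (T : List (List Nat)) : List (Nat × Nat) := rangeL.zip T.flatten

def rowEq (r r' : Nat) (L : List (Nat × Nat)) : Bool :=
  L.all fun p => r.testBit p.2 == r'.testBit p.1

def equivOK (T : List (List Nat)) : Bool :=
  rangeL.all fun i => rowEq (row (lut T i)) (row i) (pairsOf T)

def nbList (i : Nat) : List Nat := rangeL.filter fun j => (row i).testBit j

def symOK : Bool :=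
  rangeL.all fun i => (nbList i).all fun j => (row j).testBit i

def irreflOK : Bool := rangeL.all fun i => !(row i).testBit i

def expected (j : Nat) : Nat := if j = 0 then 100 else if (row 0).testBit j then 36 else 20

def srgOK : Bool :=
  rangeL.all fun j => ((nbList 0).filter fun l => (row j).testBit l).length == expected j

/-- False if the list contains a clique of the given size. -/
def noClique : Nat → List Nat → Bool
  | 0 => fun _ => false
  | k + 1 => fun L => L.tails.all fun t => match t with
    | [] => true
    | a :: L' => noClique k (L'.filter fun b => (row a).testBit b)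

def parOK : Bool :=
  rangeL.all fun i => i == 0 || (decide (lut parT i / 2 < i) &&
    (lut (if lut parT i % 2 = 0 then genA else genB) (lut parT i / 2) == i))

def permTable (T : List (List Nat)) : Bool :=
  decide (T.flatten.Nodup) && T.flatten.all (fun x => decide (x < 416)) &&
  (T.flatten == rangeL.map (lut T))

def sgn1 (i : Nat) : Int := (if group1.contains i then 1 else 0) - (if group2.contains i then 1 else 0)
def sgn2 (i : Nat) : Int :=
  (if group1.contains i then 1 else 0) + (if group2.contains i then 1 else 0)
    - 2 * (if group3.contains i then 1 else 0)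

def cnt (r : Nat) (L : List Nat) : Nat := (L.filter fun j => r.testBit j).length

def eigOK : Bool :=
  rangeL.all fun i =>
    ((cnt (row i) group1 : Int) - cnt (row i) group2 == 20 * sgn1 i) &&
    ((cnt (row i) group1 : Int) + cnt (row i) group2 - 2 * cnt (row i) group3 == 20 * sgn2 i)

/-- The `k`-th block of 32 vertices. -/
def block (k : Nat) : List Nat := List.range' (32 * k) 32

theorem all_rangeL {p : Nat → Bool} (h : ∀ k < 13, (block k).all p = true) : rangeL.all p = true := by
  refine List.all_eq_true.2 fun i hi => ?_
  have hi' : i < 416 := List.mem_range.1 hi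
  refine List.all_eq_true.1 (h (i / 32) (by omega)) i (List.mem_range'_1.2 ?_)
  omega

theorem mask_mem : ∀ (L : List Nat) (m y : Nat),
    (L.foldl (fun m x => m ||| 2 ^ x) m).testBit y = true → m.testBit y = true ∨ y ∈ L
  | [], _, _, h => Or.inl h
  | x :: L, m, y, h => by
    rcases mask_mem L _ y h with h' | h'
    · rw [Nat.testBit_or, Bool.or_eq_true, Nat.testBit_two_pow] at h'
      rcases h' with h'' | h''
      · exact Or.inl h''
      · exact Or.inr (by simp [of_decide_eq_true h''])
    · exact Or.inr (List.mem_cons_of_mem _ h')

theorem permTable_of {T : List (List Nat)} (hlt : T.flatten.all (fun x => decide (x < 416)) = true)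
    (heq : (T.flatten == rangeL.map (lut T)) = true)
    (hmask : T.flatten.foldl (fun m x => m ||| 2 ^ x) 0 = 2 ^ 416 - 1) : permTable T = true := by
  have hnd : T.flatten.Nodup := by
    have hlen : T.flatten.length = 416 := by
      rw [beq_iff_eq.1 heq, List.length_map, rangeL, List.length_range]
    have hsub : Finset.range 416 ⊆ T.flatten.toFinset := fun y hy => by
      rw [List.mem_toFinset]
      have hb : (2 ^ 416 - 1 : Nat).testBit y = true := by
        rw [Nat.testBit_two_pow_sub_one]
        simpa using Finset.mem_range.1 hy
      rw [← hmask] at hb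
      rcases mask_mem _ _ _ hb with h | h
      · simp at h
      · exact h
    have h1 := Finset.card_le_card hsub
    rw [Finset.card_range] at h1
    exact List.dedup_eq_self.1 (List.Sublist.eq_of_length_le (List.dedup_sublist _)
      (by rw [← List.card_toFinset]; omega))
  simp [permTable, hnd, hlt, heq]

theorem noClique_of : ∀ (k : Nat) (L : List Nat),
    (∀ p < L.length, noClique k ((L.drop (p + 1)).filter fun b => (row (L.getD p 0)).testBit b) = true) →
    noClique (k + 1) L = true
  | k, [], _ => by simp [noClique, List.tails]
  | k, a :: L, h => by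
    have h0 := h 0 (Nat.succ_pos _)
    have ih := noClique_of k L fun p hp => by simpa using h (p + 1) (Nat.succ_lt_succ hp)
    simp only [noClique, List.tails, List.all_cons] at ih ⊢
    simp only [List.getD_cons_zero, List.drop_succ_cons, List.drop_zero] at h0
    simp [h0, ih]

/-- The neighbours of `0`. -/
def nbZero : List Nat :=
  [3, 5, 6, 7, 8, 10, 12, 14, 21, 24, 42, 43, 45, 48, 55, 58, 74, 75, 78, 79, 83, 84, 90, 94,
  97, 100, 105, 109, 128, 131, 133, 135, 141, 151, 159, 161, 166, 168, 182, 187, 198, 200, 208,
  212, 224, 234, 238, 240, 250, 264, 278, 280, 285, 294, 298, 304, 307, 311, 313, 315, 316, 320,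
  321, 323, 326, 328, 330, 337, 343, 344, 346, 349, 353, 356, 359, 362, 366, 367, 368, 369, 373,
  376, 377, 379, 384, 388, 389, 390, 396, 398, 399, 403, 404, 405, 407, 408, 409, 410, 412, 413]

theorem nbList_zero : nbList 0 = nbZero := by decide +kernel

/-- The neighbours in a list, by machine arithmetic. -/
noncomputable def filtF (r : Nat) (L : List Nat) : List Nat :=
  List.rec [] (fun b _ ih => Bool.rec ih (b :: ih) (Nat.beq (Nat.land (Nat.shiftRight r b) 1) 1)) L

theorem filtF_eq (r : Nat) : ∀ L : List Nat, filtF r L = L.filter fun b => r.testBit b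
  | [] => rfl
  | b :: L => by
    have h : filtF r (b :: L) = Bool.rec (filtF r L) (b :: filtF r L)
        (Nat.beq ((r >>> b) &&& 1) 1) := rfl
    rw [h, filtF_eq r L, List.filter_cons, Nat.testBit_eq_decide_div_mod_eq, Nat.and_one_is_mod,
      Nat.shiftRight_eq_div_pow]
    rcases Nat.mod_two_eq_zero_or_one (r / 2 ^ b) with h' | h' <;> rw [h'] <;> rfl

/-- `noClique`, written out with recursors. -/
noncomputable def noCliqueF (k : Nat) : List Nat → Bool :=
  Nat.rec (fun _ => false) (fun _ ih L =>
    List.rec true (fun a L' r => Bool.and (ih (filtF (row a) L')) r) L) k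

theorem noCliqueF_eq : ∀ (k : Nat) (L : List Nat), noCliqueF k L = noClique k L
  | 0, _ => rfl
  | k + 1, [] => by simp only [noClique, List.tails, List.all_cons, List.all_nil]; rfl
  | k + 1, a :: L => by
    have h : noCliqueF (k + 1) (a :: L) = (noCliqueF k (filtF (row a) L) && noCliqueF (k + 1) L) := rfl
    rw [h, noCliqueF_eq k, noCliqueF_eq (k + 1) L, filtF_eq]
    simp only [noClique, List.tails, List.all_cons]

/-- The clique check at the `p`-th neighbour of `0`. -/
def cliqueAt (p : Nat) : Bool :=
  noClique 4 ((nbZero.drop (p + 1)).filter fun b => (row (nbZero.getD p 0)).testBit b)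

theorem cliqueF_eq (p : Nat) : cliqueAt p
    = noCliqueF 4 (filtF (row (nbZero.getD p 0)) (nbZero.drop (p + 1))) := by
  rw [filtF_eq, noCliqueF_eq]; rfl

theorem cliqueAt_eq : ∀ k < 4, (List.range' (25 * k) 25).all cliqueAt = true := by
  intro k hk
  rw [show cliqueAt = fun p => noCliqueF 4 (filtF (row (nbZero.getD p 0)) (nbZero.drop (p + 1)))
    from funext cliqueF_eq]
  interval_cases k <;> decide +kernel

theorem nbZero_length : nbZero.length = 100 := by decide +kernel

theorem clique_eq : noClique 5 (nbList 0) = true := nbList_zero ▸ noClique_of 4 nbZero fun p hp => by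
  rw [nbZero_length] at hp
  exact List.all_eq_true.1 (cliqueAt_eq (p / 25) (by omega)) p (List.mem_range'_1.2 (by omega))

theorem parOK_eq : parOK = true := by decide +kernel
theorem irreflOK_eq : irreflOK = true := by decide +kernel
theorem permA_eq : permTable genA = true :=
  permTable_of (by decide +kernel) (by decide +kernel) (by decide +kernel)
theorem permB_eq : permTable genB = true :=
  permTable_of (by decide +kernel) (by decide +kernel) (by decide +kernel)

theorem mask_testBit : ∀ (L : List Nat) (m y : Nat),
    (L.foldl (fun m x => m ||| 2 ^ x) m).testBit y = (m.testBit y || L.contains y)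
  | [], m, y => by simp
  | x :: L, m, y => by
    rw [List.foldl_cons, mask_testBit L, Nat.testBit_or, Nat.testBit_two_pow, List.contains_cons,
      Bool.or_assoc]
    congr 2
    by_cases h : x = y <;> simp [h, Ne.symm]

/-- Membership in a group, read from its bit mask. -/
theorem contains_eq (L : List Nat) (i : Nat) :
    L.contains i = (L.foldl (fun m x => m ||| 2 ^ x) 0).testBit i := by
  rw [mask_testBit, Nat.zero_testBit, Bool.false_or]

/-- `cnt`, written out as a fold. -/
noncomputable def cntF (r : Nat) (L : List Nat) : Nat :=
  List.rec 0 (fun j _ ih => Nat.add (Nat.land (Nat.shiftRight r j) 1) ih) L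

theorem cntF_eq (r : Nat) : ∀ L : List Nat, cntF r L = cnt r L
  | [] => rfl
  | j :: L => by
    have h : cntF r (j :: L) = ((r >>> j) &&& 1) + cntF r L := rfl
    rw [h, cntF_eq r L, Nat.and_one_is_mod, Nat.shiftRight_eq_div_pow, cnt, cnt,
      List.filter_cons, Nat.testBit_eq_decide_div_mod_eq]
    rcases Nat.mod_two_eq_zero_or_one (r / 2 ^ j) with h' | h' <;> simp [h', Nat.add_comm]

theorem srgOK_eq : srgOK = true := by
  have h : (rangeL.all fun j => Nat.beq (cntF (row j) nbZero) (expected j)) = true :=
    all_rangeL fun k hk => by interval_cases k <;> decide +kernel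
  refine List.all_eq_true.2 fun j hj => ?_
  have h' := Nat.eq_of_beq_eq_true (List.all_eq_true.1 h j hj)
  rw [cntF_eq, ← nbList_zero] at h'
  exact beq_iff_eq.2 h'

theorem eigOK_eq : eigOK = true := by
  have h : (rangeL.all fun i =>
      ((cntF (row i) group1 : Int) - cntF (row i) group2 == 20 * sgn1 i) &&
      ((cntF (row i) group1 : Int) + cntF (row i) group2 - 2 * cntF (row i) group3 == 20 * sgn2 i)) = true :=
    all_rangeL fun k hk => by
      simp only [sgn1, sgn2, contains_eq]
      interval_cases k <;> decide +kernel
  simp only [cntF_eq] at h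
  exact h

/-- Equality of one bit of each of two numbers, by machine arithmetic. -/
def sameBit (r p r' p' : Nat) : Bool :=
  Nat.beq (Nat.land (Nat.shiftRight r p) 1) (Nat.land (Nat.shiftRight r' p') 1)

theorem sameBit_sound {r p r' p' : Nat} (h : sameBit r p r' p' = true) :
    r.testBit p = r'.testBit p' := by
  have h' : (r >>> p) &&& 1 = (r' >>> p') &&& 1 := Nat.eq_of_beq_eq_true h
  simp only [Nat.and_one_is_mod, Nat.shiftRight_eq_div_pow] at h'
  simp only [Nat.testBit_eq_decide_div_mod_eq, h']

/-- `rowEq`, written out as a fold that the kernel evaluates quickly. -/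
noncomputable def eqBits (r r' : Nat) (L : List (Nat × Nat)) : Bool :=
  List.rec true (fun p _ ih => Bool.and (sameBit r p.2 r' p.1) ih) L

theorem eqBits_sound {r r' : Nat} : ∀ {L : List (Nat × Nat)}, eqBits r r' L = true → rowEq r r' L = true
  | [], _ => rfl
  | p :: L, h => by
    have h' : (sameBit r p.2 r' p.1 && eqBits r r' L) = true := h
    rw [Bool.and_eq_true] at h'
    have := eqBits_sound h'.2
    simp only [rowEq, List.all_cons, Bool.and_eq_true, beq_iff_eq] at this ⊢
    exact ⟨sameBit_sound h'.1, this⟩

theorem equivOK_of {T : List (List Nat)}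
    (h : ∀ k < 13, (block k).all (fun i => eqBits (row (lut T i)) (row i) (pairsOf T)) = true) :
    equivOK T = true :=
  List.all_eq_true.2 fun i hi => eqBits_sound (List.all_eq_true.1 (all_rangeL h) i hi)

/-- The rows, indexed by the vertices. -/
def rowsL : List (Nat × Nat) := rangeL.zip rowT.flatten

/-- Row `i` agrees with column `i`. -/
noncomputable def eqCol (i r : Nat) (L : List (Nat × Nat)) : Bool :=
  List.rec true (fun p _ ih => Bool.and (sameBit r p.1 p.2 i) ih) L

theorem eqCol_sound {i r : Nat} : ∀ {L : List (Nat × Nat)}, eqCol i r L = true →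
    ∀ p ∈ L, r.testBit p.1 = p.2.testBit i
  | [], _ => by simp
  | q :: L, h => by
    have h' : (sameBit r q.1 q.2 i && eqCol i r L) = true := h
    rw [Bool.and_eq_true] at h'
    intro p hp
    rcases List.mem_cons.1 hp with rfl | hp
    · exact sameBit_sound h'.1
    · exact eqCol_sound h'.2 p hp

theorem rowsL_eq : rowsL = rangeL.map fun j => (j, row j) := by decide +kernel

theorem symOK_of (h : ∀ k < 13, (block k).all (fun i => eqCol i (row i) rowsL) = true) : symOK = true := by
  refine List.all_eq_true.2 fun i hi => List.all_eq_true.2 fun j hj => ?_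
  obtain ⟨hj1, hj2⟩ := List.mem_filter.1 hj
  have := eqCol_sound (List.all_eq_true.1 (all_rangeL h) i hi) (j, row j)
    (by rw [rowsL_eq]; exact List.mem_map.2 ⟨j, hj1, rfl⟩)
  exact this.symm.trans hj2

theorem symOK_eq : symOK = true := symOK_of fun k hk => by
  interval_cases k <;> decide +kernel

theorem equivA_eq : equivOK genA = true := equivOK_of fun k hk => by
  interval_cases k <;> decide +kernel

theorem equivB_eq : equivOK genB = true := equivOK_of fun k hk => by
  interval_cases k <;> decide +kernel

end Vale.Agent.P052
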