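import Vale.Agent.P052.Graph

namespace Vale.Agent.P052

open Finset

/-- 96 times the projection on the 65-dimensional eigenspace. -/
noncomputable def M : Matrix (Fin 416) (Fin 416) ℝ := Matrix.of fun i j =>
  4 * (if adj i j then 1 else 0) + 16 * (if i = j then 1 else 0) - 1

theorem M_self (i : Fin 416) : M i i = 15 := by
  simp [M, adj_irrefl]; norm_num

theorem M_adj {i j : Fin 416} (h : adj i j) : M i j = 3 := by
  have hne : i ≠ j := fun e => adj_irrefl j (e ▸ h)
  simp [M, h, hne]; norm_num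

theorem M_far {i j : Fin 416} (hne : i ≠ j) (h : ¬ adj i j) : M i j = -1 := by
  simp [M, h, hne]

theorem M_symm (i j : Fin 416) : M j i = M i j := by
  by_cases hij : i = j
  · subst hij; rfl
  by_cases h : adj i j
  · rw [M_adj h, M_adj (adj_symm h)]
  · rw [M_far hij h, M_far (Ne.symm hij) (fun h' => h (adj_symm h'))]

theorem degree_real (i : Fin 416) : ∑ l, (if adj i l then (1 : ℝ) else 0) = 100 := by
  have h := common_eq i i
  simp only [common, and_self, if_pos rfl] at h
  rw [sum_boole, h]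
  norm_num

theorem M_mul (i j : Fin 416) : ∑ l, M i l * M j l = 96 * M i j := by
  have e : ∀ l, M i l * M j l =
      16 * (if adj i l ∧ adj j l then (1 : ℝ) else 0)
      + 64 * ((if l = j then (1 : ℝ) else 0) * (if adj i l then (1 : ℝ) else 0))
      + 64 * ((if l = i then (1 : ℝ) else 0) * (if adj j l then (1 : ℝ) else 0))
      + 256 * ((if l = i then (1 : ℝ) else 0) * (if l = j then (1 : ℝ) else 0))
      - 4 * (if adj i l then (1 : ℝ) else 0) - 4 * (if adj j l then (1 : ℝ) else 0)
      - 16 * (if l = i then (1 : ℝ) else 0) - 16 * (if l = j then (1 : ℝ) else 0) + 1 := by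
    intro l
    simp only [M, Matrix.of_apply, eq_comm (a := i) (b := l), eq_comm (a := j) (b := l)]
    by_cases h1 : adj i l <;> by_cases h2 : adj j l <;> by_cases h3 : l = i <;>
      by_cases h4 : l = j <;> simp_all <;> norm_num
  simp only [e, sum_add_distrib, sum_sub_distrib, ← mul_sum, degree_real,
    ite_mul, one_mul, zero_mul, sum_ite_eq', mem_univ, if_true, sum_const, card_univ,
    Fintype.card_fin, nsmul_eq_mul, mul_one]
  rw [sum_boole, show (univ.filter fun l => adj i l ∧ adj j l).card = common i j from rfl,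
    common_eq]
  by_cases hij : i = j
  · subst hij; simp [M_self, adj_irrefl]; norm_num
  by_cases h : adj i j
  · rw [M_adj h]
    simp [hij, h, adj_symm h]; norm_num
  · rw [M_far hij h]
    have h' : ¬ adj j i := fun h' => h (adj_symm h')
    simp [hij, h, h']; norm_num

/-- The ambient space. -/
abbrev V := EuclideanSpace ℝ (Fin 416)

/-- The vector attached to a vertex. -/
noncomputable def x (i : Fin 416) : V := WithLp.toLp 2 fun l => M i l

theorem inner_x (i j : Fin 416) : inner ℝ (x i) (x j) = 96 * M i j := by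
  rw [PiLp.inner_apply]
  simp only [x, RCLike.inner_apply, conj_trivial]
  rw [← M_mul i j]
  exact sum_congr rfl fun l _ => mul_comm _ _

/-- The projection. -/
noncomputable def proj : V →ₗ[ℝ] V := Matrix.toEuclideanLin ((1 / 96 : ℝ) • M)

theorem proj_apply (v : V) (i : Fin 416) : proj v i = (1 / 96) * ∑ l, M i l * v l := by
  simp [proj, Matrix.mulVec, dotProduct, mul_sum, mul_assoc]

/-- The eigenspace. -/
noncomputable def W0 : Submodule ℝ V := LinearMap.range proj

theorem proj_proj (v : V) : proj (proj v) = proj v := by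
  ext i
  simp only [proj_apply]
  have : ∀ l, M i l * (1 / 96 * ∑ m, M l m * v m) = ∑ m, 1 / 96 * (M i l * M m l) * v m := by
    intro l
    rw [mul_sum, mul_sum]
    exact sum_congr rfl fun m _ => by rw [M_symm m l]; ring
  simp only [this]
  rw [sum_comm]
  simp only [← sum_mul, ← mul_sum, M_mul]
  rw [mul_sum, mul_sum]
  exact sum_congr rfl fun m _ => by ring

theorem finrank_W0 : Module.finrank ℝ W0 = 65 := by
  have hp : LinearMap.IsProj W0 proj := by
    refine ⟨fun v => LinearMap.mem_range_self _ _, ?_⟩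
    rintro v ⟨w, rfl⟩
    exact proj_proj w
  have h := hp.trace
  have ht : LinearMap.trace ℝ V proj = 65 := by
    rw [proj, Matrix.toEuclideanLin_eq_toLin_orthonormal, Matrix.trace_toLin_eq]
    simp [Matrix.trace, M_self]; norm_num
  rw [ht] at h
  exact_mod_cast h.symm

theorem x_mem (i : Fin 416) : x i ∈ W0 := by
  refine ⟨x i, ?_⟩
  ext l
  rw [proj_apply]
  simp only [x]
  rw [M_mul l i, ← M_symm i l]
  ring

/-- Group masks as functions. -/
def c1 (i : Fin 416) : Prop := i.val ∈ group1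
def c2 (i : Fin 416) : Prop := i.val ∈ group2
def c3 (i : Fin 416) : Prop := i.val ∈ group3

/-- First eigenvector. -/
noncomputable def f : V := WithLp.toLp 2 fun i => (sgn1 i.val : ℝ)

/-- Second eigenvector. -/
noncomputable def g : V := WithLp.toLp 2 fun i => (sgn2 i.val : ℝ)

theorem group_facts : group1.Nodup ∧ group2.Nodup ∧ group3.Nodup ∧
    (∀ a ∈ group1 ++ group2 ++ group3, a < 416) ∧ group1.length = 32 ∧ group2.length = 32 ∧
    group3.length = 32 ∧ (group1 ++ group2 ++ group3).Nodup := by decide +kernel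

theorem sum_mem (L : List ℕ) (hn : L.Nodup) (hlt : ∀ a ∈ L, a < 416) (p : ℕ → Bool) :
    ∑ l : Fin 416, (if p l.val = true then (1 : ℝ) else 0) * (if L.contains l.val then 1 else 0)
      = (L.filter p).length := by
  rw [Fin.sum_univ_eq_sum_range
    (fun l => (if p l = true then (1 : ℝ) else 0) * (if L.contains l then 1 else 0)),
    ← List.toFinset_card_of_nodup (hn.filter p), card_eq_sum_ones, Nat.cast_sum]
  refine (sum_subset_zero_on_sdiff (fun a ha => ?_) (fun a ha => ?_) (fun a ha => ?_)).symm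
  · exact mem_range.2 (hlt a (List.mem_of_mem_filter (List.mem_toFinset.1 ha)))
  · have h := (mem_sdiff.1 ha).2
    by_cases h1 : a ∈ L <;> by_cases h2 : p a = true <;> simp_all [List.mem_filter]
  · have h := List.mem_filter.1 (List.mem_toFinset.1 ha)
    simp [h.1, h.2]

theorem sum_adj_group (i : Fin 416) (L : List ℕ) (hn : L.Nodup) (hlt : ∀ a ∈ L, a < 416) :
    ∑ l : Fin 416, (if adj i l then (1 : ℝ) else 0) * (if L.contains l.val then 1 else 0)
      = cnt (row i.val) L :=
  sum_mem L hn hlt _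

theorem eig (i : Fin 416) :
    (∑ l, (if adj i l then (1 : ℝ) else 0) * (sgn1 l.val : ℝ) = 20 * sgn1 i.val) ∧
    (∑ l, (if adj i l then (1 : ℝ) else 0) * (sgn2 l.val : ℝ) = 20 * sgn2 i.val) := by
  obtain ⟨n1, n2, n3, hlt, -, -, -, -⟩ := group_facts
  have s1 := sum_adj_group i group1 n1 (fun a ha => hlt a (by simp [ha]))
  have s2 := sum_adj_group i group2 n2 (fun a ha => hlt a (by simp [ha]))
  have s3 := sum_adj_group i group3 n3 (fun a ha => hlt a (by simp [ha]))
  have h := List.all_eq_true.1 eigOK_eq i.val (mem_rangeL.2 i.isLt)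
  simp only [Bool.and_eq_true, beq_iff_eq] at h
  have h1 : ((cnt (row i) group1 : ℝ) - cnt (row i) group2) = 20 * sgn1 i.val := by
    exact_mod_cast h.1
  have h2 : ((cnt (row i) group1 : ℝ) + cnt (row i) group2 - 2 * cnt (row i) group3)
      = 20 * sgn2 i.val := by
    exact_mod_cast h.2
  constructor
  · simp only [sgn1, Int.cast_sub, Int.cast_ite, Int.cast_one, Int.cast_zero, mul_sub,
      sum_sub_distrib, s1, s2] at h1 ⊢
    linarith
  · simp only [sgn2, Int.cast_sub, Int.cast_add, Int.cast_mul, Int.cast_ofNat, Int.cast_ite,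
      Int.cast_one, Int.cast_zero, mul_sub, mul_add, sum_sub_distrib, sum_add_distrib,
      mul_left_comm _ (2 : ℝ), ← mul_sum, s1, s2, s3] at h2 ⊢
    linarith

theorem sgn_sums : (∑ l : Fin 416, sgn1 l.val) = 0 ∧ (∑ l : Fin 416, sgn2 l.val) = 0
    ∧ (∑ l : Fin 416, sgn1 l.val * sgn2 l.val) = 0
    ∧ (∑ l : Fin 416, sgn2 l.val * sgn2 l.val) = 192
    ∧ (∑ l : Fin 416, sgn1 l.val * sgn1 l.val) = 64 := by
  rw [Fin.sum_univ_eq_sum_range (fun l => sgn1 l), Fin.sum_univ_eq_sum_range (fun l => sgn2 l),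
    Fin.sum_univ_eq_sum_range (fun l => sgn1 l * sgn2 l),
    Fin.sum_univ_eq_sum_range (fun l => sgn2 l * sgn2 l),
    Fin.sum_univ_eq_sum_range (fun l => sgn1 l * sgn1 l)]
  simp only [sgn1, sgn2, contains_eq]
  decide +kernel

theorem sum_M_eig (i : Fin 416) (s : Fin 416 → ℝ)
    (hs : ∑ l, (if adj i l then (1 : ℝ) else 0) * s l = 20 * s i) (h0 : ∑ l, s l = 0) :
    ∑ l, M i l * s l = 96 * s i := by
  have e : ∀ l, M i l * s l = 4 * ((if adj i l then (1 : ℝ) else 0) * s l)
      + 16 * (if i = l then s l else 0) - s l := by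
    intro l
    by_cases h : i = l <;> by_cases h' : adj i l <;> simp_all [M] <;> ring
  simp only [e, sum_sub_distrib, sum_add_distrib, ← mul_sum, hs, h0, sum_ite_eq, mem_univ,
    if_true]
  ring

theorem inner_x_f (i : Fin 416) : inner ℝ (x i) f = 96 * (sgn1 i.val : ℝ) := by
  rw [PiLp.inner_apply]
  simp only [x, f, RCLike.inner_apply, conj_trivial]
  rw [← sum_M_eig i (fun l => (sgn1 l.val : ℝ)) (eig i).1 (by exact_mod_cast sgn_sums.1)]
  exact sum_congr rfl fun l _ => mul_comm _ _

theorem inner_x_g (i : Fin 416) : inner ℝ (x i) g = 96 * (sgn2 i.val : ℝ) := by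
  rw [PiLp.inner_apply]
  simp only [x, g, RCLike.inner_apply, conj_trivial]
  rw [← sum_M_eig i (fun l => (sgn2 l.val : ℝ)) (eig i).2 (by exact_mod_cast sgn_sums.2.1)]
  exact sum_congr rfl fun l _ => mul_comm _ _

theorem f_mem : f ∈ W0 := by
  refine ⟨f, ?_⟩
  ext i
  rw [proj_apply]
  simp only [f]
  rw [sum_M_eig i (fun l => (sgn1 l.val : ℝ)) (eig i).1 (by exact_mod_cast sgn_sums.1)]
  ring

theorem g_mem : g ∈ W0 := by
  refine ⟨g, ?_⟩
  ext i
  rw [proj_apply]
  simp only [g]
  rw [sum_M_eig i (fun l => (sgn2 l.val : ℝ)) (eig i).2 (by exact_mod_cast sgn_sums.2.1)]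
  ring

theorem inner_f_f : inner ℝ f f = (64 : ℝ) := by
  rw [PiLp.inner_apply]
  simp only [f, RCLike.inner_apply, conj_trivial]
  exact_mod_cast sgn_sums.2.2.2.2

theorem inner_f_g : inner ℝ f g = (0 : ℝ) := by
  rw [PiLp.inner_apply]
  simp only [f, g, RCLike.inner_apply, conj_trivial]
  rw [← show ((∑ l : Fin 416, sgn1 l.val * sgn2 l.val : ℤ) : ℝ) = 0 by
    exact_mod_cast sgn_sums.2.2.1]
  push_cast
  exact sum_congr rfl fun l _ => mul_comm _ _

theorem inner_g_g : inner ℝ g g = (192 : ℝ) := by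
  rw [PiLp.inner_apply]
  simp only [g, RCLike.inner_apply, conj_trivial]
  exact_mod_cast sgn_sums.2.2.2.1

/-- The 64-dimensional section. -/
noncomputable def W1 : Submodule ℝ V := (ℝ ∙ f)ᗮ ⊓ W0

/-- The 63-dimensional section. -/
noncomputable def W2 : Submodule ℝ V := (ℝ ∙ g)ᗮ ⊓ W1

theorem finrank_section {K : Submodule ℝ V} {v : V} (hv : v ∈ K) (h : v ≠ 0) :
    Module.finrank ℝ ((ℝ ∙ v)ᗮ ⊓ K : Submodule ℝ V) + 1 = Module.finrank ℝ K := by
  have := Submodule.finrank_add_inf_finrank_orthogonal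
    ((Submodule.span_singleton_le_iff_mem v K).2 hv)
  rw [finrank_span_singleton h] at this
  omega

theorem finrank_W1 : Module.finrank ℝ W1 = 64 := by
  have h := finrank_section f_mem (fun e => by simpa [e] using inner_f_f)
  rw [finrank_W0] at h
  unfold W1
  omega

theorem g_mem_W1 : g ∈ W1 :=
  ⟨Submodule.mem_orthogonal_singleton_iff_inner_right.2 inner_f_g, g_mem⟩

theorem finrank_W2 : Module.finrank ℝ W2 = 63 := by
  have h := finrank_section g_mem_W1 (fun e => by simpa [e] using inner_g_g)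
  rw [finrank_W1] at h
  unfold W2
  omega

theorem x_mem_W1 {i : Fin 416} (h : sgn1 i.val = 0) : x i ∈ W1 :=
  ⟨Submodule.mem_orthogonal_singleton_iff_inner_left.2 (by simp [inner_x_f, h]), x_mem i⟩

theorem x_mem_W2 {i : Fin 416} (h1 : sgn1 i.val = 0) (h2 : sgn2 i.val = 0) : x i ∈ W2 :=
  ⟨Submodule.mem_orthogonal_singleton_iff_inner_left.2 (by simp [inner_x_g, h2]), x_mem_W1 h1⟩

end Vale.Agent.P052
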