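import Vale.Agent.P052.Check

namespace Vale.Agent.P052

/-- Adjacency in the graph on 416 vertices. -/
def adj (i j : Fin 416) : Prop := (row i.val).testBit j.val = true

instance (i j : Fin 416) : Decidable (adj i j) :=
  inferInstanceAs (Decidable (_ = true))

theorem mem_rangeL {i : Nat} : i ∈ rangeL ↔ i < 416 := List.mem_range

theorem adj_irrefl (i : Fin 416) : ¬ adj i i := by
  have h := List.all_eq_true.1 irreflOK_eq i.val (mem_rangeL.2 i.isLt)
  intro h'
  unfold adj at h'
  simp [h'] at h

theorem adj_symm {i j : Fin 416} (h : adj i j) : adj j i := by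
  have h1 := List.all_eq_true.1 symOK_eq i.val (mem_rangeL.2 i.isLt)
  exact List.all_eq_true.1 h1 j.val (List.mem_filter.2 ⟨mem_rangeL.2 j.isLt, h⟩)

/-- The map of vertices given by a table. -/
def permFun (T : List (List Nat)) (i : Fin 416) : Fin 416 :=
  ⟨lut T i.val % 416, Nat.mod_lt _ (by norm_num)⟩

theorem perm_facts {T : List (List Nat)} (h : permTable T = true) :
    T.flatten.Nodup ∧ T.flatten = rangeL.map (lut T) ∧ ∀ i < 416, lut T i < 416 := by
  simp only [permTable, Bool.and_eq_true, decide_eq_true_eq, beq_iff_eq,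
    List.all_eq_true] at h
  refine ⟨h.1.1, h.2, fun i hi => h.1.2 _ ?_⟩
  rw [h.2]
  exact List.mem_map.2 ⟨i, mem_rangeL.2 hi, rfl⟩

theorem permFun_bij {T : List (List Nat)} (h : permTable T = true) :
    Function.Bijective (permFun T) := by
  obtain ⟨h1, h2, h3⟩ := perm_facts h
  refine Finite.injective_iff_bijective.1 ?_
  intro i j hij
  have e : lut T i.val = lut T j.val := by
    have := congrArg Fin.val hij
    simpa [permFun, Nat.mod_eq_of_lt (h3 i i.isLt), Nat.mod_eq_of_lt (h3 j j.isLt)] using this
  rw [h2] at h1
  exact Fin.ext (List.inj_on_of_nodup_map h1 (mem_rangeL.2 i.isLt) (mem_rangeL.2 j.isLt) e)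

theorem adj_permFun {T : List (List Nat)} (h : permTable T = true) (he : equivOK T = true)
    (i j : Fin 416) : adj (permFun T i) (permFun T j) ↔ adj i j := by
  obtain ⟨_, h2, h3⟩ := perm_facts h
  have h4 := List.all_eq_true.1 he i.val (mem_rangeL.2 i.isLt)
  have h5 : (j.val, lut T j.val) ∈ pairsOf T := by
    rw [pairsOf, h2, List.zip_map_right]
    refine List.mem_map.2 ⟨(j.val, j.val), ?_, rfl⟩
    rw [List.zip_eq_zipWith, List.zipWith_self]
    exact List.mem_map.2 ⟨j.val, mem_rangeL.2 j.isLt, rfl⟩
  have h6 := List.all_eq_true.1 h4 _ h5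
  simp only [beq_iff_eq] at h6
  simp only [adj, permFun, Nat.mod_eq_of_lt (h3 i i.isLt), Nat.mod_eq_of_lt (h3 j j.isLt)]
  rw [h6]

/-- Number of common neighbours. -/
def common (i j : Fin 416) : Nat := (Finset.univ.filter fun l => adj i l ∧ adj j l).card

theorem card_filter_fin (n : Nat) (p : Nat → Bool) :
    (Finset.univ.filter fun l : Fin n => p l.val = true).card
      = ((List.range n).filter p).length := by
  have h1 : (Finset.univ.filter fun l : Fin n => p l.val = true).map Fin.valEmbedding
      = ((List.range n).filter p).toFinset := by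
    ext x
    simp only [Finset.mem_map, Finset.mem_filter, Finset.mem_univ, true_and,
      Fin.valEmbedding_apply, List.mem_toFinset, List.mem_filter, List.mem_range]
    constructor
    · rintro ⟨l, hl, rfl⟩
      exact ⟨l.isLt, hl⟩
    · rintro ⟨hx, hp⟩
      exact ⟨⟨x, hx⟩, hp, rfl⟩
  rw [← Finset.card_map Fin.valEmbedding, h1]
  exact List.toFinset_card_of_nodup (List.nodup_range.filter _)

theorem common_zero (j : Fin 416) : common 0 j = expected j.val := by
  have h := List.all_eq_true.1 srgOK_eq j.val (mem_rangeL.2 j.isLt)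
  simp only [beq_iff_eq] at h
  rw [← h, nbList, List.filter_filter, rangeL, ← card_filter_fin]
  refine congrArg Finset.card (Finset.filter_congr fun l _ => ?_)
  simp [adj, Bool.and_eq_true, and_comm]

theorem orbit_induction {P : Fin 416 → Prop} (h0 : P 0)
    (hA : ∀ i, P i → P (permFun genA i)) (hB : ∀ i, P i → P (permFun genB i)) : ∀ i, P i := by
  have key : ∀ n : Nat, ∀ i : Fin 416, i.val = n → P i := by
    intro n
    induction n using Nat.strong_induction_on with
    | _ n ih =>
      intro i hi
      by_cases hn : n = 0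
      · subst hn
        exact (Fin.ext hi : i = 0) ▸ h0
      · have hlt : n < 416 := hi ▸ i.isLt
        have h := List.all_eq_true.1 parOK_eq n (mem_rangeL.2 hlt)
        simp only [Bool.or_eq_true, beq_iff_eq, hn, false_or, Bool.and_eq_true,
          decide_eq_true_eq] at h
        obtain ⟨hp, he⟩ := h
        have hpp := ih _ hp ⟨lut parT n / 2, hp.trans hlt⟩ rfl
        by_cases hg : lut parT n % 2 = 0
        · rw [if_pos hg] at he
          have := hA _ hpp
          convert this using 1
          apply Fin.ext
          simp [permFun, he, hi, Nat.mod_eq_of_lt hlt]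
        · rw [if_neg hg] at he
          have := hB _ hpp
          convert this using 1
          apply Fin.ext
          simp [permFun, he, hi, Nat.mod_eq_of_lt hlt]
  exact fun i => key _ i rfl

theorem common_eq (i j : Fin 416) :
    common i j = if i = j then 100 else if adj i j then 36 else 20 := by
  revert j
  refine orbit_induction (P := fun i => ∀ j, common i j
    = if i = j then 100 else if adj i j then 36 else 20) ?_ ?_ ?_ i
  · intro j
    rw [common_zero, expected]
    by_cases h : j = 0
    · subst h; simp
    · have hv : j.val ≠ 0 := fun e => h (Fin.ext e)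
      rw [if_neg hv, if_neg (Ne.symm h)]
      rfl
  all_goals
    intro i hi j
  · have hb := permFun_bij permA_eq
    obtain ⟨j', rfl⟩ := hb.2 j
    rw [show common (permFun genA i) (permFun genA j') = common i j' from ?_, hi j']
    · simp [hb.1.eq_iff, adj_permFun permA_eq equivA_eq]
    · refine (Finset.card_bijective _ hb ?_).symm
      intro l
      simp [adj_permFun permA_eq equivA_eq]
  · have hb := permFun_bij permB_eq
    obtain ⟨j', rfl⟩ := hb.2 j
    rw [show common (permFun genB i) (permFun genB j') = common i j' from ?_, hi j']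
    · simp [hb.1.eq_iff, adj_permFun permB_eq equivB_eq]
    · refine (Finset.card_bijective _ hb ?_).symm
      intro l
      simp [adj_permFun permB_eq equivB_eq]

theorem noClique_sound : ∀ (k : Nat) (L : List Nat) (S : Finset Nat),
    (∀ a ∈ S, a ∈ L) → (∀ a ∈ S, ∀ b ∈ S, a ≠ b → (row a).testBit b = true) →
    k ≤ S.card → noClique k L = false := by
  intro k
  induction k with
  | zero => intro L S _ _ _; rfl
  | succ k ih =>
    intro L
    induction L with
    | nil =>
      intro S hS _ hc
      have : S = ∅ := Finset.eq_empty_of_forall_notMem fun a ha => by simpa using hS a ha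
      simp [this] at hc
    | cons a L ihL =>
      intro S hS hadj hc
      by_cases ha : a ∈ S
      · have h1 : noClique k (L.filter fun b => (row a).testBit b) = false := by
          refine ih _ (S.erase a) ?_ ?_ ?_
          · intro b hb
            obtain ⟨hne, hbS⟩ := Finset.mem_erase.1 hb
            refine List.mem_filter.2 ⟨?_, hadj a ha b hbS (Ne.symm hne)⟩
            simpa [hne] using hS b hbS
          · exact fun x hx y hy => hadj x (Finset.mem_of_mem_erase hx) y (Finset.mem_of_mem_erase hy)
          · rw [Finset.card_erase_of_mem ha]; omega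
        simp [noClique, List.tails, h1]
      · have h2 := ihL S (fun b hb => ?_) hadj hc
        · simp only [noClique, List.tails, List.all_cons] at h2 ⊢
          simp [h2]
        · rcases List.mem_cons.1 (hS b hb) with rfl | h
          · exact absurd hb ha
          · exact h

theorem clique_with_zero (s : Finset (Fin 416)) (h0 : (0 : Fin 416) ∈ s)
    (hs : ∀ a ∈ s, ∀ b ∈ s, a ≠ b → adj a b) : s.card ≤ 5 := by
  by_contra hc
  have h := noClique_sound 5 (nbList 0) ((s.erase 0).map Fin.valEmbedding) ?_ ?_ ?_
  · rw [clique_eq] at h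
    exact Bool.noConfusion h
  · intro a ha
    obtain ⟨b, hb, rfl⟩ := Finset.mem_map.1 ha
    obtain ⟨hne, hbs⟩ := Finset.mem_erase.1 hb
    exact List.mem_filter.2 ⟨mem_rangeL.2 b.isLt, hs 0 h0 b hbs (Ne.symm hne)⟩
  · intro a ha b hb hne
    obtain ⟨a', ha', rfl⟩ := Finset.mem_map.1 ha
    obtain ⟨b', hb', rfl⟩ := Finset.mem_map.1 hb
    exact hs a' (Finset.mem_of_mem_erase ha') b' (Finset.mem_of_mem_erase hb')
      (fun e => hne (congrArg Fin.valEmbedding e))
  · rw [Finset.card_map, Finset.card_erase_of_mem h0]
    omega

theorem clique_le_five (s : Finset (Fin 416))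
    (hs : ∀ a ∈ s, ∀ b ∈ s, a ≠ b → adj a b) : s.card ≤ 5 := by
  rcases s.eq_empty_or_nonempty with rfl | ⟨v, hv⟩
  · simp
  have key : ∀ v : Fin 416, ∀ s : Finset (Fin 416), v ∈ s →
      (∀ a ∈ s, ∀ b ∈ s, a ≠ b → adj a b) → s.card ≤ 5 := by
    have step : ∀ T, permTable T = true → equivOK T = true → ∀ i,
        (∀ s : Finset (Fin 416), i ∈ s → (∀ a ∈ s, ∀ b ∈ s, a ≠ b → adj a b) → s.card ≤ 5) →
        ∀ t : Finset (Fin 416), permFun T i ∈ t →
        (∀ a ∈ t, ∀ b ∈ t, a ≠ b → adj a b) → t.card ≤ 5 := by
      intro T h1 h2 i hi t ht htadj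
      have hb := permFun_bij h1
      let e := Equiv.ofBijective _ hb
      have h3 := hi (t.map e.symm.toEmbedding) ?_ ?_
      · simpa using h3
      · exact Finset.mem_map.2 ⟨_, ht, e.symm_apply_apply i⟩
      · intro a ha b hb' hne
        obtain ⟨a', ha', rfl⟩ := Finset.mem_map.1 ha
        obtain ⟨b', hb'', rfl⟩ := Finset.mem_map.1 hb'
        refine (adj_permFun h1 h2 _ _).1 ?_
        have ea : permFun T (e.symm a') = a' := e.apply_symm_apply a'
        have eb : permFun T (e.symm b') = b' := e.apply_symm_apply b'
        simp only [Equiv.coe_toEmbedding]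
        rw [ea, eb]
        exact htadj a' ha' b' hb'' (fun x => hne (congrArg e.symm.toEmbedding x))
    exact orbit_induction clique_with_zero (step genA permA_eq equivA_eq)
      (step genB permB_eq equivB_eq)
  exact key v s hv hs

end Vale.Agent.P052
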