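import Vale.Agent.P052.Geom

namespace Vale.Agent.P052

open Finset

/-- A finite configuration on a sphere, of diameter `D`, such that every colouring with
`d + 1` colours has a monochromatic diametral pair. -/
def Good (d : ℕ) : Prop :=
  ∃ (ι : Type) (_ : Fintype ι) (v : ι → EuclideanSpace ℝ (Fin d)) (D r : ℝ),
    0 < D ∧ 0 ≤ r ∧ (∀ i, ‖v i‖ = r) ∧ 2 * r ^ 2 < D ^ 2 ∧ (∀ i j, dist (v i) (v j) ≤ D) ∧
    ∀ col : ι → Fin (d + 1), ∃ i j, col i = col j ∧ dist (v i) (v j) = D

theorem borsuk_of_colouring {d : ℕ} {ι : Type} [Fintype ι] (v : ι → EuclideanSpace ℝ (Fin d))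
    {D : ℝ} (hD : 0 < D) (hle : ∀ i j, dist (v i) (v j) ≤ D)
    (hcol : ∀ col : ι → Fin (d + 1), ∃ i j, col i = col j ∧ dist (v i) (v j) = D) :
    ∃ X : Set (EuclideanSpace ℝ (Fin d)), X.Finite ∧ 0 < Metric.diam X ∧
      ¬ ∃ S : Fin (d + 1) → Set (EuclideanSpace ℝ (Fin d)),
        X = (⋃ i, S i) ∧ ∀ i, Metric.diam (S i) < Metric.diam X := by
  have hdiam : Metric.diam (Set.range v) = D := by
    refine le_antisymm (Metric.diam_le_of_forall_dist_le hD.le ?_) ?_
    · rintro _ ⟨i, rfl⟩ _ ⟨j, rfl⟩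
      exact hle i j
    · obtain ⟨i, j, -, h⟩ := hcol fun _ => 0
      rw [← h]
      exact Metric.dist_le_diam_of_mem (Set.finite_range v).isBounded
        (Set.mem_range_self i) (Set.mem_range_self j)
  refine ⟨Set.range v, Set.finite_range v, hdiam ▸ hD, ?_⟩
  rintro ⟨S, hS, hlt⟩
  have hmem : ∀ i, ∃ k, v i ∈ S k := fun i => by
    have : v i ∈ Set.range v := Set.mem_range_self i
    rw [hS] at this
    exact Set.mem_iUnion.1 this
  choose col hc using hmem
  obtain ⟨i, j, he, hd⟩ := hcol col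
  have hb : Bornology.IsBounded (S (col i)) :=
    ((Set.finite_range v).subset (hS ▸ Set.subset_iUnion S (col i))).isBounded
  have h2 : dist (v i) (v j) ≤ Metric.diam (S (col i)) :=
    Metric.dist_le_diam_of_mem hb (hc i) (he ▸ hc j)
  have h3 := hlt (col i)
  rw [hdiam] at h3
  linarith

/-- Prepend a coordinate. -/
noncomputable def consVec {d : ℕ} (a : ℝ) (w : EuclideanSpace ℝ (Fin d)) :
    EuclideanSpace ℝ (Fin (d + 1)) :=
  WithLp.toLp 2 (Fin.cons a fun k => w k)

theorem norm_consVec {d : ℕ} (a : ℝ) (w : EuclideanSpace ℝ (Fin d)) :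
    ‖consVec a w‖ ^ 2 = a ^ 2 + ‖w‖ ^ 2 := by
  rw [EuclideanSpace.norm_sq_eq, EuclideanSpace.norm_sq_eq, Fin.sum_univ_succ]
  simp [consVec]

theorem consVec_sub {d : ℕ} (a b : ℝ) (w u : EuclideanSpace ℝ (Fin d)) :
    consVec a w - consVec b u = consVec (a - b) (w - u) := by
  ext k
  refine Fin.cases ?_ (fun l => ?_) k <;> simp [consVec]

theorem dist_consVec_sq {d : ℕ} (a b : ℝ) (w u : EuclideanSpace ℝ (Fin d)) :
    dist (consVec a w) (consVec b u) ^ 2 = (a - b) ^ 2 + dist w u ^ 2 := by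
  rw [dist_eq_norm, dist_eq_norm, consVec_sub, norm_consVec]

theorem Good.succ {d : ℕ} (h : Good d) : Good (d + 1) := by
  obtain ⟨ι, hι, v, D, r, hD, hr, hv, hlt, hle, hcol⟩ := h
  have hr2 : 0 ≤ r ^ 2 := sq_nonneg r
  obtain ⟨H, hH0, hH⟩ : ∃ H : ℝ, 0 < H ∧ H ^ 2 = D ^ 2 - r ^ 2 :=
    ⟨Real.sqrt (D ^ 2 - r ^ 2), Real.sqrt_pos.2 (by linarith), Real.sq_sqrt (by linarith)⟩
  obtain ⟨z, hz⟩ : ∃ z : ℝ, 2 * H * z = H ^ 2 - r ^ 2 :=
    ⟨(H ^ 2 - r ^ 2) / (2 * H), by field_simp⟩
  have hrad : 0 ≤ H - z := by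
    by_contra hc
    have : 0 < 2 * H * (z - H) := by
      apply mul_pos <;> linarith
    nlinarith
  let v' : Option ι → EuclideanSpace ℝ (Fin (d + 1)) :=
    fun o => o.elim (consVec (H - z) 0) (fun i => consVec (-z) (v i))
  have d_none : ∀ i, dist (v' none) (v' (some i)) = D := fun i => by
    refine (pow_left_inj₀ dist_nonneg hD.le two_ne_zero).1 ?_
    simp only [v', Option.elim_none, Option.elim_some]
    rw [dist_consVec_sq, dist_zero_left, hv]
    linear_combination hH
  have d_some : ∀ i j, dist (v' (some i)) (v' (some j)) = dist (v i) (v j) := fun i j => by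
    refine (pow_left_inj₀ dist_nonneg dist_nonneg two_ne_zero).1 ?_
    simp only [v', Option.elim_some]
    rw [dist_consVec_sq]
    ring
  refine ⟨Option ι, inferInstance, v', D, H - z, hD, hrad, ?_, ?_, ?_, ?_⟩
  · intro o
    refine (pow_left_inj₀ (norm_nonneg _) hrad two_ne_zero).1 ?_
    cases o with
    | none =>
      simp only [v', Option.elim_none]
      rw [norm_consVec]; simp
    | some i =>
      simp only [v', Option.elim_some]
      rw [norm_consVec, hv]
      linear_combination hz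
  · have h1 : 2 * H * (H - z) = D ^ 2 := by linear_combination hH - hz
    have h2 : D ^ 2 < 2 * H ^ 2 := by linarith
    have h3 : 0 < 4 * H ^ 2 := by positivity
    have h4 : (2 * H * (H - z)) ^ 2 = (D ^ 2) ^ 2 := by rw [h1]
    have h5 : 0 < D ^ 2 := by positivity
    nlinarith
  · rintro (_ | i) (_ | j)
    · simp [hD.le]
    · exact (d_none j).le
    · rw [dist_comm]; exact (d_none i).le
    · rw [d_some]; exact hle i j
  · intro col
    by_cases hc : ∃ i, col (some i) = col none
    · obtain ⟨i, hi⟩ := hc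
      exact ⟨none, some i, hi.symm, d_none i⟩
    · push Not at hc
      have hex : ∀ i, ∃ c : Fin (d + 1), (col none).succAbove c = col (some i) := fun i =>
        Fin.exists_succAbove_eq (hc i)
      choose col' hcol' using hex
      obtain ⟨i, j, he, hd⟩ := hcol col'
      exact ⟨some i, some j, by rw [← hcol' i, ← hcol' j, he], by rw [d_some]; exact hd⟩

theorem inner_self_x (i : Fin 416) : inner ℝ (x i) (x i) = (1440 : ℝ) := by
  rw [inner_x, M_self]; norm_num

theorem norm_x_sq (i : Fin 416) : ‖x i‖ ^ 2 = 1440 := by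
  rw [← real_inner_self_eq_norm_sq, inner_self_x]

theorem dist_x_sq (i j : Fin 416) : dist (x i) (x j) ^ 2 = 2880 - 192 * M i j := by
  rw [dist_eq_norm, norm_sub_sq_real, norm_x_sq, norm_x_sq, inner_x]
  ring

theorem dist_x_le (i j : Fin 416) : dist (x i) (x j) ≤ Real.sqrt 3072 := by
  refine Real.le_sqrt_of_sq_le ?_
  rw [dist_x_sq]
  by_cases hij : i = j
  · subst hij; rw [M_self]; norm_num
  by_cases h : adj i j
  · rw [M_adj h]; norm_num
  · rw [M_far hij h]; norm_num

theorem dist_x_far {i j : Fin 416} (hne : i ≠ j) (h : ¬ adj i j) :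
    dist (x i) (x j) = Real.sqrt 3072 := by
  rw [← Real.sqrt_sq dist_nonneg (x := dist (x i) (x j)), dist_x_sq, M_far hne h]
  norm_num

theorem pigeon {ι : Type} [Fintype ι] (e : ι → Fin 416) (he : Function.Injective e) (m : ℕ)
    (hcard : 5 * m < Fintype.card ι) (col : ι → Fin m) :
    ∃ i j, col i = col j ∧ i ≠ j ∧ ¬ adj (e i) (e j) := by
  classical
  by_contra hc
  have h5 : ∀ k : Fin m, (univ.filter fun i => col i = k).card ≤ 5 := fun k => by
    rw [← card_image_of_injective _ he]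
    refine clique_le_five _ ?_
    intro a ha b hb hne
    obtain ⟨i, hi, rfl⟩ := mem_image.1 ha
    obtain ⟨j, hj, rfl⟩ := mem_image.1 hb
    by_contra hn
    exact hc ⟨i, j, (mem_filter.1 hi).2.trans (mem_filter.1 hj).2.symm,
      fun h => hne (congrArg e h), hn⟩
  have := card_le_mul_card_image_of_maps_to (f := col) (s := univ) (t := univ)
    (fun i _ => mem_univ _) 5 (fun k _ => h5 k)
  simp at this
  omega

theorem count64 : 5 * 65 <
    Fintype.card {i : Fin 416 // sgn1 i.val = 0} := by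
  rw [Fintype.card_subtype, Finset.card_filter,
    Fin.sum_univ_eq_sum_range (fun i => if sgn1 i = 0 then 1 else 0)]
  simp only [sgn1, contains_eq]
  decide +kernel

theorem good64 : Good 64 := by
  let φ : W1 ≃ₗᵢ[ℝ] EuclideanSpace ℝ (Fin 64) :=
    (stdOrthonormalBasis ℝ W1).repr.trans
      (LinearIsometryEquiv.piLpCongrLeft 2 ℝ ℝ (finCongr finrank_W1))
  refine ⟨{i : Fin 416 // sgn1 i.val = 0}, inferInstance,
    fun i => φ ⟨x i.val, x_mem_W1 i.2⟩, Real.sqrt 3072, Real.sqrt 1440,
    by positivity, by positivity, ?_, ?_, ?_, ?_⟩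
  · intro i
    rw [φ.norm_map, Submodule.coe_norm, ← norm_x_sq i.val, Real.sqrt_sq (norm_nonneg _)]
  · rw [Real.sq_sqrt (by norm_num), Real.sq_sqrt (by norm_num)]; norm_num
  · intro i j
    rw [φ.dist_map, Subtype.dist_eq]
    exact dist_x_le _ _
  · intro col
    obtain ⟨i, j, he, hne, hna⟩ := pigeon _ Subtype.val_injective 65 count64 col
    refine ⟨i, j, he, ?_⟩
    rw [φ.dist_map, Subtype.dist_eq]
    exact dist_x_far (fun h => hne (Subtype.ext h)) hna

theorem good_of_le {d : ℕ} (h : 64 ≤ d) : Good d :=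
  Nat.le_induction good64 (fun _ _ hd => hd.succ) d h

/-- The removed vertex used for the extra point. -/
def y : Fin 416 := 11

theorem y_sgn : sgn1 y.val = 0 ∧ sgn2 y.val = -2 := by decide +kernel

/-- The set of 320 vertices. -/
abbrev Sub := {i : Fin 416 // sgn1 i.val = 0 ∧ sgn2 i.val = 0}

theorem count63 : 5 * 64 < Fintype.card (Option Sub) := by
  rw [Fintype.card_option, Fintype.card_subtype, Finset.card_filter,
    Fin.sum_univ_eq_sum_range (fun i => if sgn1 i = 0 ∧ sgn2 i = 0 then 1 else 0)]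
  simp only [ite_and]
  simp only [sgn1, sgn2, contains_eq]
  decide +kernel

/-- Scale of the extra point. -/
noncomputable def sc : ℝ := (Real.sqrt 222 - 1) / 13

theorem sc_eq : 13 * sc ^ 2 + 2 * sc - 17 = 0 := by
  have h : Real.sqrt 222 ^ 2 = 222 := Real.sq_sqrt (by norm_num)
  unfold sc
  linear_combination h / 13

theorem sc_nonneg : 0 ≤ sc := by
  have : (1 : ℝ) ≤ Real.sqrt 222 := Real.one_le_sqrt.2 (by norm_num)
  unfold sc
  positivity

/-- The extra point: the rescaled projection of the removed vertex. -/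
noncomputable def q : V := sc • (x y + g)

theorem q_mem : q ∈ W2 := by
  refine W2.smul_mem _ ⟨?_, W1.add_mem (x_mem_W1 y_sgn.1) g_mem_W1⟩
  refine Submodule.mem_orthogonal_singleton_iff_inner_left.2 ?_
  rw [inner_add_left, inner_x_g, inner_g_g, y_sgn.2]
  norm_num

theorem dist_q_sq (i : Sub) : dist q (x i.val) ^ 2
    = 1440 + 1248 * sc ^ 2 - 192 * sc * M y i.val := by
  have hg : inner ℝ g (x i.val) = (0 : ℝ) := by
    rw [real_inner_comm, inner_x_g, i.2.2]; simp
  have hyg : inner ℝ (x y) g = (-192 : ℝ) := by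
    rw [inner_x_g, y_sgn.2]; norm_num
  rw [dist_eq_norm, norm_sub_sq_real, norm_x_sq, q, norm_smul, mul_pow, Real.norm_eq_abs, sq_abs,
    norm_add_sq_real, norm_x_sq, ← real_inner_self_eq_norm_sq g, inner_g_g, hyg,
    real_inner_smul_left, inner_add_left, inner_x, hg]
  ring

theorem y_ne (i : Sub) : y ≠ i.val := fun e => by
  have := y_sgn.2
  rw [e, i.2.2] at this
  norm_num at this

theorem dist_q_le (i : Sub) : dist q (x i.val) ≤ Real.sqrt 3072 := by
  refine Real.le_sqrt_of_sq_le ?_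
  rw [dist_q_sq]
  by_cases h : adj y i.val
  · rw [M_adj h]; nlinarith [sc_eq, sc_nonneg]
  · rw [M_far (y_ne i) h]; nlinarith [sc_eq]

theorem dist_q_far (i : Sub) (h : ¬ adj y i.val) : dist q (x i.val) = Real.sqrt 3072 := by
  rw [← Real.sqrt_sq dist_nonneg (x := dist q (x i.val)), dist_q_sq, M_far (y_ne i) h]
  congr 1
  linear_combination 96 * sc_eq

/-- The 321 points. -/
noncomputable def pt : Option Sub → V := fun o => o.elim q (fun i => x i.val)

theorem pt_mem : ∀ o, pt o ∈ W2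
  | none => q_mem
  | some i => x_mem_W2 i.2.1 i.2.2

theorem pt_le : ∀ a b, dist (pt a) (pt b) ≤ Real.sqrt 3072
  | none, none => by simp [pt]
  | none, some j => dist_q_le j
  | some i, none => by simp only [pt, Option.elim]; rw [dist_comm]; exact dist_q_le i
  | some i, some j => dist_x_le _ _

/-- The vertex of each of the 321 points. -/
def vtx : Option Sub → Fin 416 := fun o => o.elim y (fun i => i.val)

theorem vtx_inj : Function.Injective vtx := by
  rintro (_ | i) (_ | j) h
  · rfl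
  · exact absurd h (y_ne j)
  · exact absurd h.symm (y_ne i)
  · exact congrArg some (Subtype.ext h)

theorem pt_far : ∀ a b, a ≠ b → ¬ adj (vtx a) (vtx b) → dist (pt a) (pt b) = Real.sqrt 3072
  | none, none, h, _ => absurd rfl h
  | none, some j, _, h => dist_q_far j h
  | some i, none, _, h => by
    simp only [pt, Option.elim]
    rw [dist_comm]
    exact dist_q_far i (fun h' => h (adj_symm h'))
  | some i, some j, h, ha => dist_x_far (fun e => h (congrArg some (Subtype.ext e))) ha

theorem borsuk_63 : ∃ X : Set (EuclideanSpace ℝ (Fin 63)), X.Finite ∧ 0 < Metric.diam X ∧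
      ¬ ∃ S : Fin (63 + 1) → Set (EuclideanSpace ℝ (Fin 63)),
        X = (⋃ i, S i) ∧ ∀ i, Metric.diam (S i) < Metric.diam X := by
  let φ : W2 ≃ₗᵢ[ℝ] EuclideanSpace ℝ (Fin 63) :=
    (stdOrthonormalBasis ℝ W2).repr.trans
      (LinearIsometryEquiv.piLpCongrLeft 2 ℝ ℝ (finCongr finrank_W2))
  refine borsuk_of_colouring (fun o : Option Sub => φ ⟨pt o, pt_mem o⟩)
    (D := Real.sqrt 3072) (by positivity) ?_ ?_
  · intro a b
    rw [φ.dist_map, Subtype.dist_eq]
    exact pt_le a b
  · intro col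
    obtain ⟨i, j, he, hne, hna⟩ := pigeon vtx vtx_inj 64 count63 col
    refine ⟨i, j, he, ?_⟩
    rw [φ.dist_map, Subtype.dist_eq]
    exact pt_far i j hne hna

theorem borsuk_fails {d : ℕ} (hd : 63 ≤ d) :
    ∃ X : Set (EuclideanSpace ℝ (Fin d)), X.Finite ∧ 0 < Metric.diam X ∧
      ¬ ∃ S : Fin (d + 1) → Set (EuclideanSpace ℝ (Fin d)),
        X = (⋃ i, S i) ∧ ∀ i, Metric.diam (S i) < Metric.diam X := by
  rcases eq_or_lt_of_le hd with rfl | h
  · exact borsuk_63
  · obtain ⟨ι, hι, v, D, r, hD, -, -, -, hle, hcol⟩ := good_of_le (show 64 ≤ d by omega)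
    exact borsuk_of_colouring v hD hle hcol

end Vale.Agent.P052
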